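import Vale.Agent.P231.A.BlowA

/-!
# Blowing up the cut locus  (TASK)

`blow` (helper): for `w : E` and an ultrafilter `U ≤ 𝓝[>] 0`, apply `nearest` to `b = a₀ + δ • w`, choose `a δ, n δ, r δ`; along `U`: `a → a₀`, `n → n₀ ∈ Nor` (bounded, `IsCompact.ultrafilter_le_nhds`, `nor_limit`), `r / δ → r₀ ≥ 0`,
`(a - a₀) / δ → y₀ = w - r₀ • n₀`.  `reach` at `a₀` with `u ∈ Nor`, `β = a - a₀`, divided by `δ`: `ip u y₀ ≤ 0`.  `reach` at `a δ` with `u = n δ`, `β = a₀ - a`: `ip n₀ y₀ ≥ 0` (continuity of `g.g e`).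
`Bl.mor` follows (`g.ip q = g.g e a₀` by definition).
`quant`: it suffices to get `r δ ≤ C' δ²` eventually.  If not, there is an ultrafilter with `r δ > C' δ²`; for `w = τ`: `ip n₀ τ = r₀ D² ≥ 0`, so `ip n₀ τ = 0`, `-n₀ ∈ Nor`; `reach` at `a₀` with `u = -n₀`:
`r ip n₀ (n δ) ≤ C₁ δ²` with `C₁` depending only on the constants, `D`, `‖τ‖`, `‖g.ip q‖` (write `a - a₀ = δ τ - r n - ε`, `‖ε‖ ≤ C ‖τ‖² δ²`, `‖n₀‖ ≤ C`), and `ip n₀ (n δ) > D² / 2` eventually; take `C' = 2 C₁ / D² + 1`.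
This file holds one portion of the plan above.  Prefix helper names by `blow_hb_`.
-/

namespace Vale.Agent.P231

open scoped ContDiff Manifold ENNReal Topology
open Vale.Agent.P255 Vale.Agent.P234 Set Filter Real

variable {E M : Type*} [NormedAddCommGroup E] [NormedSpace ℝ E] [FiniteDimensional ℝ E]
  [TopologicalSpace M] [ChartedSpace E M] [IsManifold 𝓘(ℝ, E) ∞ M] [T2Space M] [CompactSpace M]
  [ConnectedSpace M] {g : Metric E M} {D : ℝ} {p q : M}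

theorem quant (h : Bl g D) (hq : rdist g p q = D) {τ : E} (h1 : ∀ n ∈ Nor g D p q, g.ip q n τ ≤ 0)
    (h2 : ∀ n ∈ Nor g D p q, g.ip q n τ = 0 → -n ∈ Nor g D p q) :
    ∃ C : ℝ, ∀ᶠ δ in 𝓝[>] (0 : ℝ), ∃ a, rdist g p ((chartAt E q).symm a) = D ∧
      ‖a - chartAt E q q - δ • τ‖ ≤ C * δ ^ 2 := by
  obtain ⟨C, a, n, r, hC, h3, H⟩ := blow h hq τ
  obtain ⟨K, ρ, hK, hρ, h4⟩ := reach g D p q
  have hD := pow_pos h.pos 2
  have h5 : ∀ᶠ δ in 𝓝[>] (0 : ℝ), r δ ≤ 2 * (K * C ^ 2 + ‖g.ip q‖ * C * C) / D ^ 2 * δ ^ 2 := by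
    refine mem_iff_ultrafilter.2 fun U hU => ?_
    obtain ⟨n₀, n0, r₀, r0, tn, -, e⟩ := H U hU
    have h6 := h3.filter_mono hU
    have l0 : g.ip q n₀ n₀ = D ^ 2 := by rw [← nrm_sq, n0.1]
    have e1 : g.ip q n₀ τ = 0 := by
      rw [map_sub, map_smul, l0, smul_eq_mul, sub_eq_zero] at e
      exact (h1 _ n0).antisymm (e ▸ mul_nonneg r0 hD.le)
    have b0 : ‖n₀‖ ≤ C := le_of_tendsto tn.norm (h6.mono fun δ b => b.2.2.1)
    have t1 : Tendsto (fun δ : ℝ => C * δ) U (𝓝 0) := by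
      simpa using Tendsto.const_mul C (hU.trans nhdsWithin_le_nhds : Tendsto id (U : Filter ℝ) (𝓝 0))
    filter_upwards [h6, t1.eventually (ge_mem_nhds hρ),
      (((g.ip q n₀).continuous.tendsto _).comp tn).eventually
        (le_mem_nhds (show D ^ 2 / 2 < g.ip q n₀ n₀ by linarith))] with δ ⟨b1, b2, _, b4, b5⟩ c1 c2
    have k1 : g.ip q (-n₀) (a δ - chartAt E q q) ≤ K * ‖a δ - chartAt E q q‖ ^ 2 :=
      h4.self_of_nhds _ _ (h.norE (h2 _ n0 e1)) (b4.trans c1) (by rw [add_sub_cancel]; exact b1.cut)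
    have k2 := mul_le_mul_of_nonneg_left (pow_le_pow_left₀ (norm_nonneg _) b4 2) hK.le
    have k3 := (abs_le.1 ((g.ip q).le_of_opNorm₂_le_of_le le_rfl b0 b5)).1
    have k4 : g.ip q n₀ (chartAt E q q + δ • τ - a δ - r δ • n δ) =
        g.ip q (-n₀) (a δ - chartAt E q q) - r δ * g.ip q n₀ (n δ) := by
      simp only [map_sub, map_add, map_smul, map_neg, neg_apply, e1,
        smul_eq_mul]
      ring
    have k5 := mul_le_mul_of_nonneg_left c2 b2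
    rw [div_mul_eq_mul_div, le_div_iff₀ hD]
    simp only [Function.comp] at k5
    linarith
  refine ⟨C + 2 * (K * C ^ 2 + ‖g.ip q‖ * C * C) / D ^ 2 * C, ?_⟩
  filter_upwards [h3, h5] with δ ⟨b1, b2, b3, _, b5⟩ c
  refine ⟨a δ, b1.cut, ?_⟩
  have e : a δ - chartAt E q q - δ • τ =
      -(chartAt E q q + δ • τ - a δ - r δ • n δ) - r δ • n δ := by abel
  rw [e]
  refine (norm_sub_le _ _).trans ?_
  rw [norm_neg, norm_smul, Real.norm_of_nonneg b2]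
  linarith [mul_le_mul c b3 (norm_nonneg _) (b2.trans c)]

end Vale.Agent.P231
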