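import Vale.Agent.P231.A.Reach
import Vale.Agent.P231.A.Cone

/-!
# Blowing up the cut locus  (TASK)

`blow` (helper): for `w : E` and an ultrafilter `U ≤ 𝓝[>] 0`, apply `nearest` to `b = a₀ + δ • w`, choose `a δ, n δ, r δ`; along `U`: `a → a₀`, `n → n₀ ∈ Nor` (bounded, `IsCompact.ultrafilter_le_nhds`, `nor_limit`), `r / δ → r₀ ≥ 0`,
`(a - a₀) / δ → y₀ = w - r₀ • n₀`.  `reach` at `a₀` with `u ∈ Nor`, `β = a - a₀`, divided by `δ`: `ip u y₀ ≤ 0`.  `reach` at `a δ` with `u = n δ`, `β = a₀ - a`: `ip n₀ y₀ ≥ 0` (continuity of `g.g e`).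
`Bl.mor` follows (`g.ip q = g.g e a₀` by definition).
`quant`: it suffices to get `r δ ≤ C' δ²` eventually.  If not, there is an ultrafilter with `r δ > C' δ²`; for `w = τ`: `ip n₀ τ = r₀ D² ≥ 0`, so `ip n₀ τ = 0`, `-n₀ ∈ Nor`; `reach` at `a₀` with `u = -n₀`:
`r ip n₀ (n δ) ≤ C₁ δ²` with `C₁` depending only on the constants, `D`, `‖τ‖`, `‖g.ip q‖` (write `a - a₀ = δ τ - r n - ε`, `‖ε‖ ≤ C ‖τ‖² δ²`, `‖n₀‖ ≤ C`), and `ip n₀ (n δ) > D² / 2` eventually; take `C' = 2 C₁ / D² + 1`.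
This file holds one portion of the plan above.  Prefix helper names by `blow_ha_`.
-/

namespace Vale.Agent.P231

open scoped ContDiff Manifold ENNReal Topology
open Vale.Agent.P255 Vale.Agent.P234 Set Filter Real

variable {E M : Type*} [NormedAddCommGroup E] [NormedSpace ℝ E] [FiniteDimensional ℝ E]
  [TopologicalSpace M] [ChartedSpace E M] [IsManifold 𝓘(ℝ, E) ∞ M] [T2Space M] [CompactSpace M]
  [ConnectedSpace M] {g : Metric E M} {D : ℝ} {p q : M}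

theorem blow (h : Bl g D) (hq : rdist g p q = D) (w : E) :
    ∃ (C : ℝ) (a n : ℝ → E) (r : ℝ → ℝ), 0 < C ∧
    (∀ᶠ δ in 𝓝[>] (0 : ℝ), NorE g D p q (a δ) (n δ) ∧ 0 ≤ r δ ∧ ‖n δ‖ ≤ C ∧
      ‖a δ - chartAt E q q‖ ≤ C * δ ∧ ‖chartAt E q q + δ • w - a δ - r δ • n δ‖ ≤ C * δ ^ 2) ∧
    ∀ U : Ultrafilter ℝ, (U : Filter ℝ) ≤ 𝓝[>] 0 → ∃ n₀ ∈ Nor g D p q, ∃ r₀ : ℝ, 0 ≤ r₀ ∧
      Tendsto n U (𝓝 n₀) ∧ (∀ u ∈ Nor g D p q, g.ip q u (w - r₀ • n₀) ≤ 0) ∧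
        g.ip q n₀ (w - r₀ • n₀) = 0 := by
  obtain ⟨C, hC, h1⟩ := nearest h hq
  obtain ⟨K, ρ, hK, hρ, h2⟩ := reach g D p q
  have t0 : Tendsto (fun δ : ℝ => δ) (𝓝[>] 0) (𝓝 0) := nhdsWithin_le_nhds
  have t1 : Tendsto (fun δ : ℝ => chartAt E q q + δ • w) (𝓝[>] 0) (𝓝 (chartAt E q q)) := by
    simpa using (t0.smul_const w).const_add (chartAt E q q)
  obtain ⟨a, h3⟩ := (t1.eventually h1).choice
  obtain ⟨n, h4⟩ := h3.choice
  obtain ⟨r, h5⟩ := h4.choice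
  obtain ⟨A, hA, a0, a1, a2⟩ : ∃ A : ℝ, 0 < A ∧ C ≤ A ∧ C * ‖w‖ ≤ A ∧ C * ‖w‖ ^ 2 ≤ A := by
    have := mul_nonneg hC.le (norm_nonneg w)
    have := mul_nonneg hC.le (sq_nonneg ‖w‖)
    exact ⟨C + C * ‖w‖ + C * ‖w‖ ^ 2, by positivity, by linarith, by linarith, by linarith⟩
  have h6 : ∀ᶠ δ in 𝓝[>] (0 : ℝ), 0 < δ ∧ r δ ≤ A * δ ∧ NorE g D p q (a δ) (n δ) ∧ 0 ≤ r δ ∧
      ‖n δ‖ ≤ A ∧ ‖a δ - chartAt E q q‖ ≤ A * δ ∧
      ‖chartAt E q q + δ • w - a δ - r δ • n δ‖ ≤ A * δ ^ 2 := by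
    filter_upwards [h5, self_mem_nhdsWithin] with δ ⟨b1, b2, b3, b4, b5, b6⟩ (hδ : 0 < δ)
    rw [add_sub_cancel_left, norm_smul, Real.norm_of_nonneg hδ.le] at b3 b5 b6
    have c1 := mul_le_mul_of_nonneg_right a1 hδ.le
    have c2 := mul_le_mul_of_nonneg_right a2 (sq_nonneg δ)
    exact ⟨hδ, by linarith, b1, b2, b4.trans a0, by linarith, b6.trans (by linarith)⟩
  refine ⟨A, a, n, r, hA, h6.mono fun δ b => b.2.2, fun U hU => ?_⟩
  have h7 := h6.filter_mono hU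
  have u0 := t0.mono_left hU
  have z : ∀ c : ℝ, Tendsto (fun δ : ℝ => c * δ) U (𝓝 0) := fun c => by simpa using u0.const_mul c
  obtain ⟨n₀, -, tn⟩ := (isCompact_closedBall (0 : E) A).ultrafilter_le_nhds (U.map n)
    (le_principal_iff.2 (h7.mono fun δ b => mem_closedBall_zero_iff.2 b.2.2.2.2.1))
  obtain ⟨r₀, r0, tr⟩ := (isCompact_Icc (a := (0 : ℝ)) (b := A)).ultrafilter_le_nhds
    (U.map fun δ => δ⁻¹ * r δ) (le_principal_iff.2 (h7.mono fun δ b =>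
      ⟨mul_nonneg (inv_nonneg.2 b.1.le) b.2.2.2.1, (inv_mul_le_iff₀' b.1).2 b.2.1⟩))
  have ta : Tendsto a U (𝓝 (chartAt E q q)) := tendsto_iff_norm_sub_tendsto_zero.2
    (squeeze_zero' (.of_forall fun _ => norm_nonneg _) (h7.mono fun δ b => b.2.2.2.2.2.1) (z A))
  have ty : Tendsto (fun δ => δ⁻¹ • (a δ - chartAt E q q)) U (𝓝 (w - r₀ • n₀)) := by
    have e1 : Tendsto (fun δ : ℝ => δ⁻¹ • (chartAt E q q + δ • w - a δ - r δ • n δ)) U (𝓝 0) :=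
      squeeze_zero_norm' (h7.mono fun δ b => by
        rw [norm_smul, Real.norm_of_nonneg (inv_nonneg.2 b.1.le), inv_mul_le_iff₀ b.1]
        exact b.2.2.2.2.2.2.trans_eq (by ring)) (z A)
    have e2 := ((tendsto_const_nhds (x := w)).sub (Tendsto.smul tr tn)).sub e1
    rw [sub_zero] at e2
    refine e2.congr' (h7.mono fun δ b => ?_)
    have e3 : w = δ⁻¹ • δ • w := (inv_smul_smul₀ b.1.ne' w).symm
    simp only [mul_smul]
    nth_rw 1 [e3]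
    rw [← smul_sub, ← smul_sub]
    congr 1
    abel
  have tβ : ∀ᶠ δ in (U : Filter ℝ), ‖a δ - chartAt E q q‖ ≤ ρ :=
    (tendsto_iff_norm_sub_tendsto_zero.1 ta).eventually (ge_mem_nhds hρ)
  have key : ∀ δ x : ℝ, 0 < δ → ‖a δ - chartAt E q q‖ ≤ A * δ →
      x ≤ K * ‖a δ - chartAt E q q‖ ^ 2 → δ⁻¹ * x ≤ K * A ^ 2 * δ := fun δ x b1 b2 b3 => by
    rw [inv_mul_le_iff₀ b1]
    exact (b3.trans (mul_le_mul_of_nonneg_left (pow_le_pow_left₀ (norm_nonneg _) b2 2)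
      hK.le)).trans_eq (by ring)
  have n0 := nor_limit h ta tn (h7.mono fun δ b => b.2.2.1)
  have m1 : ∀ u ∈ Nor g D p q, g.ip q u (w - r₀ • n₀) ≤ 0 := fun u hu => by
    refine le_of_tendsto_of_tendsto (((g.ip q u).continuous.tendsto _).comp ty) (z (K * A ^ 2)) ?_
    filter_upwards [h7, tβ] with δ b b'
    rw [Function.comp, map_smul]
    exact key δ _ b.1 b.2.2.2.2.2.1 (h2.self_of_nhds u _ (h.norE hu) b'
      (by rw [add_sub_cancel]; exact b.2.2.1.cut))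
  refine ⟨n₀, n0, r₀, r0.1, tn, m1, (m1 _ n0).antisymm (neg_nonpos.1 ?_)⟩
  refine le_of_tendsto_of_tendsto (basic_app (basic_app ((((g.smooth _ (chart_mem_atlas E q)).contDiffAt
    (chart_target_mem_nhds E q)).continuousAt.tendsto).comp ta) tn) ty).neg (z (K * A ^ 2)) ?_
  filter_upwards [h7, tβ, ta.eventually h2] with δ b b' b''
  have e4 := b'' _ (-(a δ - chartAt E q q)) b.2.2.1 (by rwa [norm_neg]) (by
    rw [neg_sub, add_sub_cancel, (chartAt E q).left_inv (mem_chart_source E q), hq])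
  rw [norm_neg, map_neg] at e4
  rw [map_smul, smul_eq_mul, ← mul_neg]
  exact key δ _ b.1 b.2.2.2.2.2.1 e4

theorem Bl.mor (h : Bl g D) (hq : rdist g p q = D) : Mor (g.ip q) (Nor g D p q) D := by
  refine ⟨ip_symm g q, ip_pos g q, h.pos, fun n hn => by rw [← nrm_sq, hn.1], fun w => ?_⟩
  obtain ⟨C, a, n, r, -, -, H⟩ := blow h hq w
  obtain ⟨n₀, h1, r₀, h2, -, h3⟩ := H (Ultrafilter.of (𝓝[>] 0)) (Ultrafilter.of_le _)
  exact ⟨n₀, h1, r₀, h2, h3⟩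

end Vale.Agent.P231
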