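import Vale.Agent.P231.A.PerA

/-!
# All geodesics of a Blaschke manifold are closed  (TASK)

`key_real`-type estimate (`key`): `B = g.ip q`, `a, w` from `exists_var`, `a'` from `quant` at `δ = λ s`.  `β = a' - a s`; `reach` at `a s`: `G (a s) (w s) β ≤ C ‖β‖²`; `reach` at `a₀` with `-v` and `β' = a' - a₀`, and with `v` and
`β'' = a s - a₀`: `B v β = B v β' - B v β'' ≥ -C ‖β'‖² - C ‖β''‖²`.  Divide by `s²` and let `s → 0+`: `β / s → λ τ`, `β' / s → λ τ`, `β'' / s → 0`, `(w s - v) / s → -ν`, `(G (a s) - B) / s → 0` (differentiability of `g.g e` and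
`a' (0) = 0`).  With `G (a s) (w s) β = (G (a s) - B) (w s) β + B v β + B (w s - v) β` this gives `-λ B ν τ ≤ 2 C λ² ‖τ‖²` for all `λ > 0`, so `B ν τ ≥ 0`.
`nor_neg`: `Bl.mor`, `Mor.exists_tau` give `τ, v`; `c s = (D / √(B ξ ξ)) • ξ`, `ξ = v + s • n`, has derivative `ν = n - (B n v / D²) • v` and lies in `Nor` for `0 < s < 1` (`Mor.conv`; `ξ ≠ 0` by lengths); `B ν τ = B n τ ≤ 0`, so it is `0`.
`Bl.per`: for `y = γ t`, `u = (π/2) • vel γ t` of norm `D`, `q = γ (t + π/2)`, `n = -(π/2) • vel γ (t + π/2) ∈ Nor y q` (`geo_vel`, `nrm_vel_geo`), and `-n ∈ Nor y q` says `γ (t + π) = y`.  This file holds one portion of the plan above.  Prefix helper names by `per_hb_`.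
-/

namespace Vale.Agent.P231

open scoped ContDiff Manifold ENNReal Topology
open Vale.Agent.P255 Vale.Agent.P234 Set Filter Real

variable {E M : Type*} [NormedAddCommGroup E] [NormedSpace ℝ E] [FiniteDimensional ℝ E]
  [TopologicalSpace M] [ChartedSpace E M] [IsManifold 𝓘(ℝ, E) ∞ M] [T2Space M] [CompactSpace M]
  [ConnectedSpace M] {g : Metric E M} {D : ℝ} {p q : M}

theorem nor_neg (h : Bl g D) {n : E} (hn : n ∈ Nor g D p q) : -n ∈ Nor g D p q := by
  have hD := h.pos
  have hq : rdist g p q = D := by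
    rw [rdist_comm, ← hn.2, h.rdist_exp hn.1.le, hn.1]
  have hM := h.mor hq
  obtain ⟨τ, h1, h2, v, hv, hv0⟩ := hM.exists_tau
  obtain ⟨C, hC⟩ := quant h hq h1 h2
  have hvv := hM.len v hv
  have d1 : HasDerivAt (fun s : ℝ => v + s • n) n 0 := by
    simpa using ((hasDerivAt_id (0 : ℝ)).smul_const n).const_add v
  have e0 : √(g.ip q (v + (0 : ℝ) • n) (v + (0 : ℝ) • n)) = D := by
    rw [zero_smul, add_zero, hvv, sqrt_sq hD.le]
  have d2 : DifferentiableAt ℝ (fun s : ℝ => D / √(g.ip q (v + s • n) (v + s • n))) 0 := by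
    refine (differentiableAt_const D).div (DifferentiableAt.sqrt ?_ ?_) (e0 ▸ hD.ne')
    · exact ((g.ip q).differentiableAt.comp 0 d1.differentiableAt).clm_apply d1.differentiableAt
    · rw [zero_smul, add_zero, hvv]
      positivity
  have d3 := d2.hasDerivAt.fun_smul d1
  have hne : ∀ᶠ s in 𝓝 (0 : ℝ), v + s • n ≠ 0 := by
    refine d1.continuousAt.eventually_ne ?_
    rw [zero_smul, add_zero]
    rintro rfl
    rw [map_zero] at hvv
    exact (pow_pos hD 2).ne hvv
  obtain ⟨a, w, a0, w0, ha, hw, hN⟩ := exists_var h (v := v)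
    (by rw [e0, div_self hD.ne', one_smul, zero_smul, add_zero]) d3 hv (by
      filter_upwards [nhdsWithin_le_nhds hne, self_mem_nhdsWithin] with s hs s0
      exact hM.conv hv hn (le_of_lt s0) hs)
  have k := key h hv (h2 v hv hv0) a0 w0 ha hw hN hC
  rw [e0, div_self hD.ne', one_smul, zero_smul, add_zero] at k
  simp only [map_add, map_smul, add_apply, smul_apply, hv0, smul_zero, add_zero] at k
  exact h2 n hn (le_antisymm (h1 n hn) k)

theorem Bl.per (h : Bl g D) : Per g D := by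
  intro x v hv t
  have hn : ∀ c : ℝ, |c| = π / 2 →
      nrm g (g.geo x v (t + π / 2)) (c • vel E (g.geo x v) (t + π / 2)) = D := fun c hc => by
    rw [nrm_smul, nrm_vel_geo, hv, hc]
    field_simp
  have h1 : (-(π / 2)) • vel E (g.geo x v) (t + π / 2) ∈
      Nor g D (g.geo x v t) (g.geo x v (t + π / 2)) := by
    refine ⟨hn _ (by rw [abs_neg, abs_of_pos (by positivity)]), ?_⟩
    rw [g.exp_smul, g.geo_add]
    congr 1
    ring
  have h2 := (nor_neg h h1).2
  rw [neg_smul, neg_neg, g.exp_smul, g.geo_add, add_assoc, add_halves] at h2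
  exact h2

end Vale.Agent.P231
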