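import Vale.Agent.P231.A.Reach

/-!
# Varying the geodesic from the other end  (TASK)

`e = chartAt q`, `e' = chartAt p`, `Ψ z = (bE g e e' z, -pE g e e' z)`, `Ψ' z = (bE g e' e z, -pE g e' e z)`; both are differentiable at `z₀ = (e q, v)`, `z₁ = Ψ z₀ = (e' p, u₀)` (`contDiffAt_bE`, `contDiffAt_pE`), and
`Ψ' (Ψ z) = z` for `z` near `z₀` (`geoE_pE` with `c = -1`; the velocity by `geoE_deriv` and the chain rule for `s ↦ 1 - s`), so `dΨ' ∘ dΨ = id`.  For `s ≥ 0` small `bE (e q, c s) = e' p` and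
`G' (pE) (pE) = D²` (`pE_speed`), so one-sided derivatives (`HasDerivWithinAt`, `uniqueDiffWithinAt_Ici`) give `dΨ (0, ν) = (0, ξ)` with `ip p u₀ ξ = 0`.  Put
`u s = (D / nrm p (u₀ - s • ξ)) • (u₀ - s • ξ)`, of derivative `-ξ` at `0`, and `(a s, w s) = Ψ' (e' p, u s)`, of derivative `(0, -ν)`.  `cut` by `Bl.rdist_exp`, `expE_self`; `len` by `pE_speed`; `hit` by `geoE_pE`, `geoE_zero`.
Prefix helper names by `var_h`.
-/

namespace Vale.Agent.P231

open scoped ContDiff Manifold ENNReal Topology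
open Vale.Agent.P255 Vale.Agent.P234 Set Filter Real

variable {E M : Type*} [NormedAddCommGroup E] [NormedSpace ℝ E] [FiniteDimensional ℝ E]
  [TopologicalSpace M] [ChartedSpace E M] [IsManifold 𝓘(ℝ, E) ∞ M] [T2Space M] [CompactSpace M]
  [ConnectedSpace M] {g : Metric E M} {D : ℝ} {p q : M}

theorem var_hzero {F : Type*} [NormedAddCommGroup F] [NormedSpace ℝ F] {f : ℝ → F} {f' c : F}
    (hf : HasDerivAt f f' 0) (h0 : f 0 = c) (h : ∀ᶠ s in 𝓝[>] (0 : ℝ), f s = c) : f' = 0 :=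
  (uniqueDiffWithinAt_Ioi (0 : ℝ)).eq_deriv _ hf.hasDerivWithinAt
    ((hasDerivWithinAt_const (0 : ℝ) (Ioi 0) c).congr_of_eventuallyEq h h0)

/-- The state at the other end, with reversed velocity. -/
noncomputable def var_hP (g : Metric E M) (e e' : OpenPartialHomeomorph M E) (z : E × E) : E × E :=
  (bE g e e' z, -pE g e e' z)

omit [ConnectedSpace M] in
theorem var_hdiff {e e' : OpenPartialHomeomorph M E} (he : e ∈ atlas E M) (he' : e' ∈ atlas E M)
    {z : E × E} (hz : z.1 ∈ e.target) (h : expE g e z.1 z.2 ∈ e'.source) :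
    DifferentiableAt ℝ (var_hP g e e') z :=
  ((contDiffAt_bE g 1 he he' hz h).differentiableAt (by simp)).prodMk
    ((contDiffAt_pE g 1 he he' hz h).differentiableAt (by simp)).neg

omit [ConnectedSpace M] in
theorem var_hinv {e e' : OpenPartialHomeomorph M E} (he : e ∈ atlas E M) (he' : e' ∈ atlas E M)
    {z : E × E} (hz : z.1 ∈ e.target) (h : expE g e z.1 z.2 ∈ e'.source) :
    expE g e' (var_hP g e e' z).1 (var_hP g e e' z).2 = e.symm z.1 ∧
      var_hP g e' e (var_hP g e e' z) = z := by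
  have h1 : geoE g e' (var_hP g e e' z).1 (var_hP g e e' z).2 =
      fun s => geoE g e z.1 z.2 (1 - s) := by
    funext s
    have h2 := geoE_pE g he' h (-1) s
    rw [neg_one_smul, neg_one_mul, ← sub_eq_add_neg] at h2
    exact h2
  have h3 : expE g e' (var_hP g e e' z).1 (var_hP g e e' z).2 = e.symm z.1 := by
    rw [expE, h1]
    simp only [sub_self, geoE_zero]
  refine ⟨h3, Prod.ext ?_ ?_⟩
  · change e (expE g e' _ _) = _
    rw [h3, e.right_inv hz]
  · change -deriv (e ∘ geoE g e' _ _) 1 = _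
    have h4 : HasDerivAt (e ∘ geoE g e z.1 z.2) z.2 (1 - 1) := by
      rw [sub_self]
      exact geoE_deriv g he hz z.2
    have h5 := h4.scomp (1 : ℝ) ((hasDerivAt_id (1 : ℝ)).const_sub 1)
    rw [h1]
    have h6 : deriv (e ∘ fun s => geoE g e z.1 z.2 (1 - s)) 1 = (-1 : ℝ) • z.2 := h5.deriv
    rw [h6, neg_one_smul, neg_neg]

omit [T2Space M] [CompactSpace M] [ConnectedSpace M] in
theorem var_hu {u₀ ξ : E} (hD : 0 < D) (h0 : nrm g p u₀ = D) (h1 : g.ip p u₀ ξ = 0) :
    ∃ u : ℝ → E, u 0 = u₀ ∧ HasDerivAt u (-ξ) 0 ∧ ∀ᶠ s in 𝓝 (0 : ℝ), nrm g p (u s) = D := by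
  have a1 : HasDerivAt (fun s : ℝ => u₀ - s • ξ) (-ξ) 0 := by
    simpa using ((hasDerivAt_id (0 : ℝ)).smul_const ξ).const_sub u₀
  have a2 := ((g.ip p).hasFDerivAt.comp_hasDerivAt 0 a1).clm_apply a1
  have a3 : HasDerivAt (fun s : ℝ => g.ip p (u₀ - s • ξ) (u₀ - s • ξ)) 0 0 := by
    refine a2.congr_deriv ?_
    simp [h1, ip_symm g p ξ u₀]
  have a4 : g.ip p (u₀ - (0 : ℝ) • ξ) (u₀ - (0 : ℝ) • ξ) ≠ 0 := by
    rw [zero_smul, sub_zero, ← nrm_sq, h0]
    positivity
  have a5 : HasDerivAt (fun s : ℝ => nrm g p (u₀ - s • ξ)) _ 0 := a3.sqrt a4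
  have a6 : nrm g p (u₀ - (0 : ℝ) • ξ) = D := by rw [zero_smul, sub_zero, h0]
  have a7 := ((hasDerivAt_const (0 : ℝ) D).fun_div a5 (by rw [a6]; exact hD.ne')).fun_smul a1
  refine ⟨fun s => (D / nrm g p (u₀ - s • ξ)) • (u₀ - s • ξ), ?_, a7.congr_deriv ?_, ?_⟩
  · simp [h0, hD.ne']
  · simp [h0, hD.ne']
  · filter_upwards [a5.continuousAt.eventually (lt_mem_nhds (a6.symm ▸ hD))] with s hs
    rw [nrm_smul, abs_of_pos (div_pos hD hs), div_mul_cancel₀ _ hs.ne']

theorem exists_var (h : Bl g D) {v ν : E} {c : ℝ → E} (hc0 : c 0 = v) (hc : HasDerivAt c ν 0)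
    (hv : v ∈ Nor g D p q) (hN : ∀ᶠ s in 𝓝[>] (0 : ℝ), c s ∈ Nor g D p q) :
    ∃ a w : ℝ → E, a 0 = chartAt E q q ∧ w 0 = v ∧ HasDerivAt a 0 0 ∧ HasDerivAt w (-ν) 0 ∧
      ∀ᶠ s in 𝓝 (0 : ℝ), NorE g D p q (a s) (w s) := by
  set e := chartAt E q with he0
  set e' := chartAt E p with he0'
  have he : e ∈ atlas E M := chart_mem_atlas E q
  have he' : e' ∈ atlas E M := chart_mem_atlas E p
  have hq : e q ∈ e.target := mem_chart_target E q
  have hp : e' p ∈ e'.target := mem_chart_target E p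
  have hps : p ∈ e'.source := mem_chart_source E p
  have hqs : q ∈ e.source := mem_chart_source E q
  have key : ∀ n ∈ Nor g D p q, expE g e (e q) n ∈ e'.source ∧ (var_hP g e e' (e q, n)).1 = e' p ∧
      g.ip p (var_hP g e e' (e q, n)).2 (var_hP g e e' (e q, n)).2 = D ^ 2 := fun n hn => by
    have k1 := (h.norE hn).hit
    have k2 : expE g e (e q) n ∈ e'.source := by rw [k1]; exact hps
    have k3 : bE g e e' (e q, n) = e' p := congrArg e' k1
    have k4 := pE_speed g he he' (q := (e q, n)) hq k2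
    rw [k3, (h.norE hn).len] at k4
    refine ⟨k2, k3, ?_⟩
    simp only [var_hP, map_neg, neg_apply, neg_neg]
    exact k4
  obtain ⟨k1, k2, k3⟩ := key v hv
  obtain ⟨i1, i2⟩ := var_hinv he he' (z := (e q, v)) hq k1
  set u₀ := (var_hP g e e' (e q, v)).2 with hu₀
  have hz₁ : var_hP g e e' (e q, v) = (e' p, u₀) := Prod.ext k2 rfl
  rw [k2, e.left_inv hqs] at i1
  have dA := (var_hdiff he he' (z := (e q, v)) hq k1).hasFDerivAt
  have dB := (var_hdiff he' he (z := (e' p, u₀)) hp (by rw [i1]; exact hqs)).hasFDerivAt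
  set A := fderiv ℝ (var_hP g e e') (e q, v) with hA
  set B := fderiv ℝ (var_hP g e' e) (e' p, u₀) with hB
  have hBA : B.comp A = ContinuousLinearMap.id ℝ (E × E) := by
    refine (HasFDerivAt.comp (e q, v) (hz₁.symm ▸ dB) dA).unique
      ((hasFDerivAt_id (e q, v)).congr_of_eventuallyEq ?_)
    filter_upwards [continuous_fst.continuousAt.eventually (e.open_target.mem_nhds hq),
      (continuousAt_expE g he (p := (e q, v)) hq).eventually (e'.open_source.mem_nhds k1)]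
      with z z1 z2
    exact (var_hinv he he' z1 z2).2
  have hc1 : HasDerivAt (fun s => var_hP g e e' (e q, c s)) (A (0, ν)) 0 :=
    HasFDerivAt.comp_hasDerivAt_of_eq (0 : ℝ) dA ((hasDerivAt_const (0 : ℝ) (e q)).prodMk hc)
      (by rw [hc0])
  have m1 : (A (0, ν)).1 = 0 := var_hzero hc1.fst (c := e' p) (by simp only [hc0]; exact k2)
    (hN.mono fun s hs => (key _ hs).2.1)
  have m2 : g.ip p u₀ (A (0, ν)).2 = 0 := by
    have m3 := var_hzero (((g.ip p).hasFDerivAt.comp_hasDerivAt 0 hc1.snd).clm_apply hc1.snd)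
      (c := D ^ 2) (by simp only [Function.comp_apply, hc0]; exact k3)
      (hN.mono fun s hs => (key _ hs).2.2)
    simp only [Function.comp_apply, hc0, ← hu₀, ip_symm g p (A (0, ν)).2 u₀] at m3
    linarith
  have hn0 : nrm g p u₀ = D := by
    rw [← sq_eq_sq₀ (nrm_nonneg g p u₀) h.pos.le, nrm_sq, k3]
  obtain ⟨u, u0, u1, u2⟩ := var_hu h.pos hn0 m2
  have hc2 : HasDerivAt (fun s => var_hP g e' e (e' p, u s)) (B (0, -(A (0, ν)).2)) 0 :=
    HasFDerivAt.comp_hasDerivAt_of_eq (0 : ℝ) dB ((hasDerivAt_const (0 : ℝ) (e' p)).prodMk u1)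
      (by rw [u0])
  have m4 : B (0, -(A (0, ν)).2) = (0, -ν) := by
    have m5 : ((0 : E), -(A (0, ν)).2) = A (0, -ν) := by
      have m6 : ((0 : E), -ν) = -((0 : E), ν) := by simp
      rw [m6, map_neg]
      exact Prod.ext (by simp [m1]) rfl
    rw [m5]
    exact congrArg (fun T : E × E →L[ℝ] E × E => T (0, -ν)) hBA
  rw [m4] at hc2
  rw [hz₁, ← u0] at i2
  refine ⟨fun s => (var_hP g e' e (e' p, u s)).1, fun s => (var_hP g e' e (e' p, u s)).2,
    congrArg Prod.fst i2, congrArg Prod.snd i2, hc2.fst, hc2.snd, ?_⟩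
  have hcont : ContinuousAt (fun s => expE g e' (e' p) (u s)) 0 :=
    ContinuousAt.comp (g := fun z : E × E => expE g e' z.1 z.2) (f := fun s => (e' p, u s))
      (continuousAt_expE g he' hp) (continuousAt_const.prodMk u1.continuousAt)
  filter_upwards [u2, hcont.eventually (e.open_source.mem_nhds (by simp only [u0, i1]; exact hqs))]
    with s s1 s2
  refine ⟨e.map_source s2, ?_, ?_, ?_⟩
  · change rdist g p (e.symm (e (expE g e' (e' p) (u s)))) = D
    rw [e.left_inv s2, expE_self, h.rdist_exp s1.le, s1]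
  · have s3 := pE_speed g he' he (q := (e' p, u s)) hp s2
    simp only [var_hP, map_neg, neg_apply, neg_neg]
    rw [s3, ← s1, nrm_sq]
    rfl
  · rw [(var_hinv he' he (z := (e' p, u s)) hp s2).1, e'.left_inv hps]

end Vale.Agent.P231
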