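import Vale.Agent.P231.A.Blow
import Vale.Agent.P231.A.Var

/-!
# All geodesics of a Blaschke manifold are closed  (TASK)

`key_real`-type estimate (`key`): `B = g.ip q`, `a, w` from `exists_var`, `a'` from `quant` at `δ = λ s`.  `β = a' - a s`; `reach` at `a s`: `G (a s) (w s) β ≤ C ‖β‖²`; `reach` at `a₀` with `-v` and `β' = a' - a₀`, and with `v` and
`β'' = a s - a₀`: `B v β = B v β' - B v β'' ≥ -C ‖β'‖² - C ‖β''‖²`.  Divide by `s²` and let `s → 0+`: `β / s → λ τ`, `β' / s → λ τ`, `β'' / s → 0`, `(w s - v) / s → -ν`, `(G (a s) - B) / s → 0` (differentiability of `g.g e` and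
`a' (0) = 0`).  With `G (a s) (w s) β = (G (a s) - B) (w s) β + B v β + B (w s - v) β` this gives `-λ B ν τ ≤ 2 C λ² ‖τ‖²` for all `λ > 0`, so `B ν τ ≥ 0`.
`nor_neg`: `Bl.mor`, `Mor.exists_tau` give `τ, v`; `c s = (D / √(B ξ ξ)) • ξ`, `ξ = v + s • n`, has derivative `ν = n - (B n v / D²) • v` and lies in `Nor` for `0 < s < 1` (`Mor.conv`; `ξ ≠ 0` by lengths); `B ν τ = B n τ ≤ 0`, so it is `0`.
`Bl.per`: for `y = γ t`, `u = (π/2) • vel γ t` of norm `D`, `q = γ (t + π/2)`, `n = -(π/2) • vel γ (t + π/2) ∈ Nor y q` (`geo_vel`, `nrm_vel_geo`), and `-n ∈ Nor y q` says `γ (t + π) = y`.  This file holds one portion of the plan above.  Prefix helper names by `per_ha_`.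
-/

namespace Vale.Agent.P231

open scoped ContDiff Manifold ENNReal Topology
open Vale.Agent.P255 Vale.Agent.P234 Set Filter Real

variable {E M : Type*} [NormedAddCommGroup E] [NormedSpace ℝ E] [FiniteDimensional ℝ E]
  [TopologicalSpace M] [ChartedSpace E M] [IsManifold 𝓘(ℝ, E) ∞ M] [T2Space M] [CompactSpace M]
  [ConnectedSpace M] {g : Metric E M} {D : ℝ} {p q : M}

theorem per_ha_abs {F : Type*} [NormedAddCommGroup F] [NormedSpace ℝ F]
    {G : ℝ → F →L[ℝ] F →L[ℝ] ℝ} {w α β : ℝ → F} {ν t : F} {C : ℝ}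
    (t1 : Tendsto (fun s : ℝ => s⁻¹ • (G s - G 0)) (𝓝[>] 0) (𝓝 0))
    (hw : HasDerivAt w (-ν) 0) (hα : HasDerivAt α 0 0) (hα0 : α 0 = 0)
    (hβ : Tendsto (fun s : ℝ => s⁻¹ • β s) (𝓝[>] 0) (𝓝 t))
    (h : ∀ᶠ s in 𝓝[>] (0 : ℝ), G s (w s) (β s - α s) ≤ C * ‖β s - α s‖ ^ 2 ∧
      G 0 (-w 0) (β s) ≤ C * ‖β s‖ ^ 2 ∧ G 0 (w 0) (α s) ≤ C * ‖α s‖ ^ 2) :
    -G 0 ν t ≤ 2 * C * ‖t‖ ^ 2 := by
  have t2 := hw.tendsto_slope_zero_right
  have t3 := hα.tendsto_slope_zero_right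
  simp only [zero_add, hα0, sub_zero] at t2 t3
  have t4 : Tendsto w (𝓝[>] 0) (𝓝 (w 0)) := hw.continuousAt.tendsto.mono_left nhdsWithin_le_nhds
  have t5 := hβ.sub t3
  have t6 := (basic_app (basic_app t1 t4) t5).add
    (basic_app (basic_app (tendsto_const_nhds (x := G 0)) t2) t5)
  have t7 := (((t5.norm.pow 2).add (hβ.norm.pow 2)).add (t3.norm.pow 2)).const_mul C
  have h1 := le_of_tendsto_of_tendsto t6 t7 (by
    filter_upwards [h, self_mem_nhdsWithin] with s hs hs0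
    have hs1 : (0 : ℝ) < s := hs0
    have hi : 0 < s⁻¹ ^ 2 := by positivity
    obtain ⟨k1, k2, k3⟩ := hs
    have e1 : ∀ x : F, ‖s⁻¹ • x‖ ^ 2 = s⁻¹ ^ 2 * ‖x‖ ^ 2 := fun x => by
      rw [norm_smul, mul_pow, Real.norm_eq_abs, sq_abs]
    simp only [← smul_sub, e1, map_smul, smul_apply, smul_eq_mul, map_sub, sub_apply, map_neg,
      neg_apply] at k1 k2 k3 ⊢
    have := mul_le_mul_of_nonneg_left (add_le_add (add_le_add k1 k2) k3) hi.le
    nlinarith)
  simp only [zero_apply, zero_add, sub_zero, map_neg, neg_apply, norm_zero] at h1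
  linarith

theorem per_ha_lim {F : Type*} [NormedAddCommGroup F] [NormedSpace ℝ F] {β : ℝ → F} {τ : F}
    {C : ℝ} (h : ∀ᶠ δ in 𝓝[>] (0 : ℝ), ‖β δ - δ • τ‖ ≤ C * δ ^ 2) :
    Tendsto (fun s : ℝ => s⁻¹ • β s) (𝓝[>] 0) (𝓝 τ) := by
  rw [tendsto_iff_norm_sub_tendsto_zero]
  have t1 : Tendsto (fun s : ℝ => C * s) (𝓝[>] 0) (𝓝 0) := by
    simpa using ((tendsto_id (x := 𝓝 (0 : ℝ))).const_mul C).mono_left nhdsWithin_le_nhds
  refine squeeze_zero' (Eventually.of_forall fun _ => norm_nonneg _) ?_ t1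
  filter_upwards [h, self_mem_nhdsWithin] with s hs hs0
  have hs1 : (0 : ℝ) < s := hs0
  have e1 : s⁻¹ • β s - τ = s⁻¹ • (β s - s • τ) := by
    rw [smul_sub, smul_smul, inv_mul_cancel₀ hs1.ne', one_smul]
  rw [e1, norm_smul, Real.norm_eq_abs, abs_of_pos (inv_pos.2 hs1), inv_mul_le_iff₀ hs1]
  linarith

theorem key (h : Bl g D) {v ν τ : E} (hv : v ∈ Nor g D p q) (hv' : -v ∈ Nor g D p q)
    {a w : ℝ → E} (ha0 : a 0 = chartAt E q q) (hw0 : w 0 = v) (ha : HasDerivAt a 0 0)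
    (hw : HasDerivAt w (-ν) 0) (hN : ∀ᶠ s in 𝓝 (0 : ℝ), NorE g D p q (a s) (w s)) {C : ℝ}
    (hτ : ∀ᶠ δ in 𝓝[>] (0 : ℝ), ∃ a, rdist g p ((chartAt E q).symm a) = D ∧
      ‖a - chartAt E q q - δ • τ‖ ≤ C * δ ^ 2) : 0 ≤ g.ip q ν τ := by
  obtain ⟨K, ρ, hK, hρ, hr⟩ := reach g D p q
  obtain ⟨a', ha'⟩ := hτ.choice
  have he := chart_mem_atlas E q
  have t0 := per_ha_lim (β := fun δ => a' δ - chartAt E q q) (ha'.mono fun δ hδ => hδ.2)
  have hG : Tendsto (fun s : ℝ => s⁻¹ • (g.g (chartAt E q) (a s) - g.g (chartAt E q) (a 0)))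
      (𝓝[>] 0) (𝓝 0) := by
    have h1 : DifferentiableAt ℝ (g.g (chartAt E q)) (a 0) := by
      rw [ha0]
      exact ((g.smooth _ he).contDiffAt (chart_target_mem_nhds E q)).differentiableAt (by simp)
    have h2 := HasFDerivAt.comp_hasDerivAt (E := E →L[ℝ] E →L[ℝ] ℝ) (0 : ℝ) h1.hasFDerivAt ha
    simpa using HasDerivAt.tendsto_slope_zero_right (F := E →L[ℝ] E →L[ℝ] ℝ) h2
  have ta : Tendsto a (𝓝[>] 0) (𝓝 (chartAt E q q)) :=
    ha0 ▸ ha.continuousAt.tendsto.mono_left nhdsWithin_le_nhds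
  have main : ∀ l : ℝ, 0 < l → -g.ip q ν τ ≤ 2 * K * ‖τ‖ ^ 2 * l := by
    intro l hl
    have t1 : Tendsto (fun s : ℝ => l * s) (𝓝[>] 0) (𝓝[>] 0) := by
      refine tendsto_nhdsWithin_iff.2 ⟨?_, ?_⟩
      · simpa using ((tendsto_id (x := 𝓝 (0 : ℝ))).const_mul l).mono_left nhdsWithin_le_nhds
      · filter_upwards [self_mem_nhdsWithin] with s hs using mul_pos hl hs
    have t2 : Tendsto (fun s : ℝ => s⁻¹ • (a' (l * s) - chartAt E q q)) (𝓝[>] 0) (𝓝 (l • τ)) := by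
      refine ((t0.comp t1).const_smul l).congr fun s => ?_
      simp only [Function.comp_apply, smul_smul, mul_inv, ← mul_assoc, mul_inv_cancel₀ hl.ne',
        one_mul]
    have t3 : Tendsto (fun s : ℝ => a' (l * s) - chartAt E q q) (𝓝[>] 0) (𝓝 0) := by
      have t4 := ((tendsto_id (x := 𝓝 (0 : ℝ))).mono_left (nhdsWithin_le_nhds (s := Ioi 0))).smul t2
      rw [zero_smul] at t4
      refine t4.congr' ?_
      filter_upwards [self_mem_nhdsWithin] with s hs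
      have hs1 : (0 : ℝ) < s := hs
      simp only [id, smul_smul, mul_inv_cancel₀ hs1.ne', one_smul]
    have t4 : Tendsto (fun s : ℝ => a s - chartAt E q q) (𝓝[>] 0) (𝓝 0) := by
      simpa using ta.sub_const (chartAt E q q)
    have t5 := t3.sub t4
    rw [sub_zero] at t5
    have h1 := per_ha_abs (G := fun s => g.g (chartAt E q) (a s)) (C := K)
      (α := fun s => a s - chartAt E q q) hG hw (ha.sub_const _)
      (by simp [ha0]) t2 (by
        filter_upwards [ta.eventually hr, nhdsWithin_le_nhds hN, t1.eventually ha',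
          t3.norm.eventually (ge_mem_nhds (by simpa using hρ)),
          t4.norm.eventually (ge_mem_nhds (by simpa using hρ)),
          t5.norm.eventually (ge_mem_nhds (by simpa using hρ))] with s k1 k2 k3 k4 k5 k6
        rw [ha0, hw0]
        refine ⟨k1 _ _ k2 k6 ?_, hr.self_of_nhds _ _ (h.norE hv') k4 ?_,
          hr.self_of_nhds _ _ (h.norE hv) k5 ?_⟩
        · simpa using k3.1
        · simpa using k3.1
        · simpa using k2.cut)
    rw [ha0, map_smul, norm_smul, mul_pow, Real.norm_eq_abs, sq_abs, smul_eq_mul] at h1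
    change -(l * g.ip q ν τ) ≤ _ at h1
    refine le_of_mul_le_mul_left ?_ hl
    linarith
  have t1 : Tendsto (fun l : ℝ => 2 * K * ‖τ‖ ^ 2 * l) (𝓝[>] 0) (𝓝 0) := by
    simpa using ((tendsto_id (x := 𝓝 (0 : ℝ))).const_mul (2 * K * ‖τ‖ ^ 2)).mono_left
      nhdsWithin_le_nhds
  have h2 := ge_of_tendsto t1 (eventually_mem_nhdsWithin.mono main)
  linarith

end Vale.Agent.P231
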