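import Vale.Agent.P231.A.ReachA

/-!
# The cut locus of a Blaschke manifold has positive reach  (TASK)

`e = chartAt q`, `a₀ = e q`.  `reach`: `sc_chart` with `R = D²`: `cost (e.symm (a + β)) p = D² / 2` (`cost_comm`), so `D²/2 ≤ D²/2 - G a u β + C ‖β‖²`.
`rdist_chart_le`: `sc_chart` with `u = 0` at `a₀` (`expE_zero`, `Eventually.self_of_nhds`).  `tendsto_of_rdist`: outside an open neighbourhood `U` of `q` the continuous function `rdist q` has a positive minimum on the compact `Uᶜ`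
(`eq_of_rdist`).  `bE_taylor`: `bE g e e` is `C²` at `(a₀, 0)` (`contDiffAt_bE`), `bE (a, 0) = a`, `fderiv bE (a, 0) (0, w) = w` (`fderiv_bE_zero`); mean value inequality applied twice, or `flow_taylor`
with a Lipschitz bound for `fderiv` (`ContDiffAt.exists_lipschitzOnWith`).
`nearest`: `x = e.symm b`, `d = rdist p x > 0` for `b` near `a₀`; `u = (D / d) • lg p x` has norm `D`; `q' = exp p u`, `n' = -vel (geo p u) 1`, `r = (D - d) / D`; `exp q' (r • n') = geo p u (1 - r) = x`, `exp q' n' = p` (`geo_vel`),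
`r D = D - d ≤ rdist x q` (triangle), `rdist q' x ≤ r D`, so `q' → q`; `a = e q'`, `n = tr e q' n'` (`expE_tr`, `ip_eq`), `b = bE (a, r • n)`; `‖n‖` is bounded (`exists_chart_bounds`).
`nor_limit`: `continuousAt_expE`, `expE_self`, continuity of `g.g e` at `a₀`.  This file holds one portion of the plan above.  Prefix helper names by `reach_hb_`.
-/

namespace Vale.Agent.P231

open scoped ContDiff Manifold ENNReal Topology
open Vale.Agent.P255 Vale.Agent.P234 Set Filter Real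

variable {E M : Type*} [NormedAddCommGroup E] [NormedSpace ℝ E] [FiniteDimensional ℝ E]
  [TopologicalSpace M] [ChartedSpace E M] [IsManifold 𝓘(ℝ, E) ∞ M] [T2Space M] [CompactSpace M]
  [ConnectedSpace M] {g : Metric E M} {D : ℝ} {p q : M}

theorem reach_hb_lip (g : Metric E M) (q : M) : ∃ C : ℝ, 0 < C ∧ ∀ᶠ b in 𝓝 (chartAt E q q),
    rdist g q ((chartAt E q).symm b) ≤ C * ‖b - chartAt E q q‖ := by
  obtain ⟨C, ρ, hC, hρ, h⟩ := sc_chart g (chart_mem_atlas E q) (mem_chart_target E q) 0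
  refine ⟨√(2 * C), by positivity, ?_⟩
  filter_upwards [_root_.Metric.closedBall_mem_nhds _ hρ] with b hb
  have := h.self_of_nhds 0 _ (by simp) (mem_closedBall_iff_norm.1 hb)
  rw [expE_zero, add_sub_cancel, (chartAt E q).left_inv (mem_chart_source E q), cost_comm,
    cost] at this
  refine (sq_le_sq₀ (rdist_nonneg g _ _) (by positivity)).1 ?_
  rw [mul_pow, sq_sqrt (by positivity)]
  simp only [map_zero, zero_apply] at this
  linarith

omit [ConnectedSpace M] in
theorem reach_hb_taylor (g : Metric E M) (q : M) : ∃ K : ℝ, 0 ≤ K ∧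
    ∀ᶠ z : E × E in 𝓝 (chartAt E q q, 0),
      ‖bE g (chartAt E q) (chartAt E q) z - z.1 - z.2‖ ≤ K * ‖z.2‖ ^ 2 := by
  have he := chart_mem_atlas E q
  have hc := contDiffAt_bE g 2 he he (q := (chartAt E q q, 0)) (mem_chart_target E q) (by
    rw [expE_zero]
    exact (chartAt E q).map_target (mem_chart_target E q))
  obtain ⟨K, t, ht, hK⟩ := (hc.fderiv_right (m := 1) (by norm_num)).exists_lipschitzOnWith
  obtain ⟨ε, hε, hb⟩ := _root_.Metric.eventually_nhds_iff_ball.1 ((hc.eventually (by simp)).and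
    (((continuous_fst.tendsto (chartAt E q q, (0 : E))).eventually
      (chart_target_mem_nhds E q)).and ht))
  refine ⟨K, K.2, ?_⟩
  filter_upwards [_root_.Metric.ball_mem_nhds _ (half_pos hε)] with z hz
  obtain ⟨h1, h2⟩ := max_lt_iff.1 (_root_.Metric.mem_ball.1 hz)
  rw [dist_zero_right] at h2
  have hs : _root_.Metric.closedBall (z.1, (0 : E)) ‖z.2‖ ⊆
      _root_.Metric.ball (chartAt E q q, 0) ε := _root_.Metric.closedBall_subset_ball' (by
    rw [Prod.dist_eq, dist_self, max_eq_left dist_nonneg]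
    linarith)
  have h0 := _root_.Metric.mem_closedBall_self (x := (z.1, (0 : E))) (norm_nonneg z.2)
  have := (convex_closedBall (z.1, (0 : E)) ‖z.2‖).norm_image_sub_le_of_norm_fderiv_le'
    (𝕜 := ℝ) (f := bE g (chartAt E q) (chartAt E q)) (C := K * ‖z.2‖) (y := z)
    (fun x hx => (hb x (hs hx)).1.differentiableAt (by simp))
    (fun x hx => (hK.norm_sub_le (hb x (hs hx)).2.2 (hb _ (hs h0)).2.2).trans
      (mul_le_mul_of_nonneg_left (mem_closedBall_iff_norm.1 hx) K.2)) h0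
    (by simp [Prod.dist_eq])
  rw [bE_zero g (hb _ (hs h0)).2.1, fderiv_bE_zero g he (hb _ (hs h0)).2.1] at this
  simpa [Prod.norm_def, sq, mul_assoc] using this

theorem reach_hb_ext (h : Bl g D) (p x : M) (hx : 0 < rdist g p x) : ∃ (y : M) (n : E) (r : ℝ),
    rdist g p y = D ∧ nrm g y n = D ∧ g.exp y n = p ∧ g.exp y (r • n) = x ∧ 0 ≤ r ∧
      r * D = D - rdist g p x := by
  have hD := h.pos
  obtain ⟨h1, h2⟩ := lg_spec g p x
  have h3 : nrm g p ((D / rdist g p x) • lg g p x) = D := by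
    rw [nrm_smul, h2, abs_of_pos (by positivity), div_mul_cancel₀ _ hx.ne']
  set u := (D / rdist g p x) • lg g p x with hu
  have h4 : ∀ s : ℝ, g.exp (g.exp p u) (s • (-1 : ℝ) • vel E (g.geo p u) 1) = g.geo p u (1 - s) :=
    fun s => by
      rw [smul_smul]
      exact (geo_vel g p u 1 _ 1).trans (congrArg _ (by ring))
  refine ⟨g.exp p u, (-1 : ℝ) • vel E (g.geo p u) 1, 1 - rdist g p x / D,
    (h.rdist_exp h3.le).trans h3, ?_, ?_, ?_, sub_nonneg.2 (div_le_one_of_le₀ (h.le _ _) hD.le),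
    by field_simp⟩
  · rw [nrm_smul, abs_neg, abs_one, one_mul]
    exact (nrm_vel_geo g p u 1).trans h3
  · simpa [g.geo_zero] using h4 1
  · rw [h4, sub_sub_cancel, ← g.exp_smul, hu, smul_smul, div_mul_div_cancel₀ hD.ne',
      div_self hx.ne', one_smul, h1]

theorem nearest (h : Bl g D) (hq : rdist g p q = D) : ∃ C : ℝ, 0 < C ∧
    ∀ᶠ b in 𝓝 (chartAt E q q), ∃ (a n : E) (r : ℝ), NorE g D p q a n ∧ 0 ≤ r ∧
      r ≤ C * ‖b - chartAt E q q‖ ∧ ‖n‖ ≤ C ∧ ‖a - chartAt E q q‖ ≤ C * ‖b - chartAt E q q‖ ∧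
      ‖b - a - r • n‖ ≤ C * ‖b - chartAt E q q‖ ^ 2 := by
  have hD := h.pos
  have he := chart_mem_atlas E q
  have : Nonempty M := ⟨p⟩
  choose! y n r H using reach_hb_ext h p
  obtain ⟨C, hC, h1⟩ := reach_hb_lip g q
  obtain ⟨K, hK, h2⟩ := reach_hb_taylor g q
  obtain ⟨c, c', hc, -, h3⟩ := exists_chart_bounds g he (mem_chart_target E q)
  set e := chartAt E q
  have t0 : Tendsto (fun b => ‖b - e q‖) (𝓝 (e q)) (𝓝 0) :=
    tendsto_iff_norm_sub_tendsto_zero.1 tendsto_id
  have t1 : Tendsto e.symm (𝓝 (e q)) (𝓝 q) := e.tendsto_symm (mem_chart_source E q)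
  have h4 : ∀ᶠ b in 𝓝 (e q), 0 < rdist g p (e.symm b) :=
    ((((continuous_rdist g).comp (Continuous.prodMk_right p)).tendsto q).comp t1).eventually
      (lt_mem_nhds (hq ▸ hD : 0 < rdist g p q))
  have h5 : ∀ᶠ b in 𝓝 (e q), r (e.symm b) * D ≤ C * ‖b - e q‖ := by
    filter_upwards [h1, h4] with b k1 k4
    have := rdist_triangle g p (e.symm b) q
    rw [rdist_comm g (e.symm b) q] at this
    linarith [(H _ k4).2.2.2.2.2]
  have t2 : Tendsto (fun b => y (e.symm b)) (𝓝 (e q)) (𝓝 q) := by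
    refine tendsto_of_rdist (g := g) (squeeze_zero' (Eventually.of_forall fun _ =>
      rdist_nonneg g _ _) ?_ (by simpa using t0.const_mul (2 * C)))
    filter_upwards [h1, h4, h5] with b k1 k4 k5
    obtain ⟨-, a2, -, a4, a5, -⟩ := H _ k4
    have a6 := rdist_exp_le g (y (e.symm b)) (r (e.symm b) • n (e.symm b))
    rw [a4, nrm_smul, a2, abs_of_nonneg a5, rdist_comm] at a6
    linarith [rdist_triangle g q (e.symm b) (y (e.symm b))]
  have h6 := t2.eventually (chart_source_mem_nhds E q)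
  have t3 : Tendsto (fun b => e (y (e.symm b))) (𝓝 (e q)) (𝓝 (e q)) :=
    (e.continuousAt (mem_chart_source E q)).tendsto.comp t2
  have h7 : ∀ᶠ b in 𝓝 (e q), NorE g D p q (e (y (e.symm b))) (tr e (y (e.symm b)) (n (e.symm b))) ∧
      ‖tr e (y (e.symm b)) (n (e.symm b))‖ ≤ D / √c := by
    filter_upwards [h4, h6, t3.eventually h3] with b k4 k6 k7
    obtain ⟨a1, a2, a3, -⟩ := H _ k4
    have a4 := (ip_eq g he k6 _ _).symm.trans ((nrm_sq g _ _).symm.trans (congrArg (· ^ 2) a2))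
    refine ⟨⟨k7.1, by rwa [e.left_inv k6], a4, (expE_tr g he k6 _).trans a3⟩,
      (sq_le_sq₀ (norm_nonneg _) (by positivity)).1 ?_⟩
    rw [div_pow, sq_sqrt hc.le, le_div_iff₀' hc, ← a4]
    exact (k7.2 _).1
  have h8 : ∀ᶠ b in 𝓝 (e q), ‖r (e.symm b) • tr e (y (e.symm b)) (n (e.symm b))‖ ≤
      C / √c * ‖b - e q‖ := by
    filter_upwards [h4, h5, h7] with b k4 k5 k7
    have a5 := (H _ k4).2.2.2.2.1
    rw [norm_smul, Real.norm_of_nonneg a5, div_mul_eq_mul_div]
    refine (mul_le_mul_of_nonneg_left k7.2 a5).trans ?_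
    rw [← mul_div_assoc]
    gcongr
  have t4 := t3.prodMk_nhds (squeeze_zero_norm' h8 (by simpa using t0.const_mul (C / √c)))
  have hA : 0 < C / √c := by positivity
  have hB : 0 < D / √c := by positivity
  have hC' : 0 < C / D := by positivity
  have hK' : 0 ≤ K * (C / √c) ^ 2 := by positivity
  refine ⟨C / D + D / √c + (1 + K * (C / √c) ^ 2 + C / √c), by positivity, ?_⟩
  filter_upwards [h4, h5, h6, h7, h8, t4.eventually h2, chart_target_mem_nhds E q,
    t0.eventually (ge_mem_nhds one_pos)] with b k4 k5 k6 k7 k8 k9 k10 k11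
  obtain ⟨-, -, -, a4, a5, -⟩ := H _ k4
  have hβ := norm_nonneg (b - e q)
  rw [bE, ← map_smul, expE_tr g he k6, a4, e.right_inv k10, map_smul] at k9
  have a6 := k9.trans (mul_le_mul_of_nonneg_left (pow_le_pow_left₀ (norm_nonneg _) k8 2) hK)
  rw [mul_pow, ← mul_assoc] at a6
  have a7 : r (e.symm b) ≤ C / D * ‖b - e q‖ := by
    rwa [div_mul_eq_mul_div, le_div_iff₀ hD]
  refine ⟨_, _, _, k7.1, a5, a7.trans (mul_le_mul_of_nonneg_right (by linarith) hβ),
    k7.2.trans (by linarith), ?_, a6.trans (mul_le_mul_of_nonneg_right (by linarith) (sq_nonneg _))⟩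
  have a8 : e (y (e.symm b)) - e q = b - e q - (b - e (y (e.symm b)) -
      r (e.symm b) • tr e (y (e.symm b)) (n (e.symm b))) -
      r (e.symm b) • tr e (y (e.symm b)) (n (e.symm b)) := by abel
  have a9 : K * (C / √c) ^ 2 * ‖b - e q‖ ^ 2 ≤ K * (C / √c) ^ 2 * ‖b - e q‖ :=
    mul_le_mul_of_nonneg_left (by nlinarith) hK'
  rw [a8]
  refine (norm_sub_le_of_le (norm_sub_le_of_le le_rfl (a6.trans a9)) k8).trans ?_
  nlinarith [mul_nonneg hC'.le hβ, mul_nonneg hB.le hβ]

theorem nor_limit (h : Bl g D) {ι : Type*} {l : Filter ι} [l.NeBot] {a n : ι → E} {n₀ : E}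
    (ha : Tendsto a l (𝓝 (chartAt E q q))) (hn : Tendsto n l (𝓝 n₀))
    (hN : ∀ᶠ i in l, NorE g D p q (a i) (n i)) : n₀ ∈ Nor g D p q := by
  have he := chart_mem_atlas E q
  have h1 := (continuousAt_expE g he (p := (chartAt E q q, n₀))
    (mem_chart_target E q)).tendsto.comp (ha.prodMk_nhds hn)
  have h2 := basic_app (basic_app ((((g.smooth _ he).contDiffAt
    (chart_target_mem_nhds E q)).continuousAt.tendsto).comp ha) hn) hn
  refine ⟨(sq_eq_sq₀ (nrm_nonneg g _ _) h.pos.le).1 ((nrm_sq g _ _).trans ?_),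
    (expE_self g q n₀).symm.trans ?_⟩
  · exact tendsto_nhds_unique h2 (tendsto_const_nhds.congr' (hN.mono fun i hi => hi.len.symm))
  · exact tendsto_nhds_unique h1 (tendsto_const_nhds.congr' (hN.mono fun i hi => hi.hit.symm))

end Vale.Agent.P231
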