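import Vale.Agent.P231.G.Bl

/-!
# The cut locus of a Blaschke manifold has positive reach  (TASK)

`e = chartAt q`, `a₀ = e q`.  `reach`: `sc_chart` with `R = D²`: `cost (e.symm (a + β)) p = D² / 2` (`cost_comm`), so `D²/2 ≤ D²/2 - G a u β + C ‖β‖²`.
`rdist_chart_le`: `sc_chart` with `u = 0` at `a₀` (`expE_zero`, `Eventually.self_of_nhds`).  `tendsto_of_rdist`: outside an open neighbourhood `U` of `q` the continuous function `rdist q` has a positive minimum on the compact `Uᶜ`
(`eq_of_rdist`).  `bE_taylor`: `bE g e e` is `C²` at `(a₀, 0)` (`contDiffAt_bE`), `bE (a, 0) = a`, `fderiv bE (a, 0) (0, w) = w` (`fderiv_bE_zero`); mean value inequality applied twice, or `flow_taylor`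
with a Lipschitz bound for `fderiv` (`ContDiffAt.exists_lipschitzOnWith`).
`nearest`: `x = e.symm b`, `d = rdist p x > 0` for `b` near `a₀`; `u = (D / d) • lg p x` has norm `D`; `q' = exp p u`, `n' = -vel (geo p u) 1`, `r = (D - d) / D`; `exp q' (r • n') = geo p u (1 - r) = x`, `exp q' n' = p` (`geo_vel`),
`r D = D - d ≤ rdist x q` (triangle), `rdist q' x ≤ r D`, so `q' → q`; `a = e q'`, `n = tr e q' n'` (`expE_tr`, `ip_eq`), `b = bE (a, r • n)`; `‖n‖` is bounded (`exists_chart_bounds`).
`nor_limit`: `continuousAt_expE`, `expE_self`, continuity of `g.g e` at `a₀`.  This file holds one portion of the plan above.  Prefix helper names by `reach_ha_`.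
-/

namespace Vale.Agent.P231

open scoped ContDiff Manifold ENNReal Topology
open Vale.Agent.P255 Vale.Agent.P234 Set Filter Real

variable {E M : Type*} [NormedAddCommGroup E] [NormedSpace ℝ E] [FiniteDimensional ℝ E]
  [TopologicalSpace M] [ChartedSpace E M] [IsManifold 𝓘(ℝ, E) ∞ M] [T2Space M] [CompactSpace M]
  [ConnectedSpace M] {g : Metric E M} {D : ℝ} {p q : M}

/-- The vectors of length `D` at `q` whose geodesics end at `p`. -/
def Nor (g : Metric E M) (D : ℝ) (p q : M) : Set E := {n | nrm g q n = D ∧ g.exp q n = p}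

/-- `(a, u)` is, in the chart at `q`, a point of the cut locus of `p` with a vector pointing to `p`. -/
structure NorE (g : Metric E M) (D : ℝ) (p q : M) (a u : E) : Prop where
  mem : a ∈ (chartAt E q).target
  cut : rdist g p ((chartAt E q).symm a) = D
  len : g.g (chartAt E q) a u u = D ^ 2
  hit : expE g (chartAt E q) a u = p

theorem Bl.norE (h : Bl g D) {n : E} (hn : n ∈ Nor g D p q) :
    NorE g D p q (chartAt E q q) n := by
  refine ⟨mem_chart_target E q, ?_, ?_, (expE_self g q n).trans hn.2⟩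
  · rw [(chartAt E q).left_inv (mem_chart_source E q), rdist_comm, ← hn.2, h.rdist_exp hn.1.le, hn.1]
  · rw [← hn.1, nrm_sq]
    rfl

theorem reach (g : Metric E M) (D : ℝ) (p q : M) : ∃ C ρ : ℝ, 0 < C ∧ 0 < ρ ∧
    ∀ᶠ a in 𝓝 (chartAt E q q), ∀ u β, NorE g D p q a u → ‖β‖ ≤ ρ →
      rdist g p ((chartAt E q).symm (a + β)) = D → g.g (chartAt E q) a u β ≤ C * ‖β‖ ^ 2 := by
  obtain ⟨C, ρ, hC, hρ, h⟩ := sc_chart g (chart_mem_atlas E q) (mem_chart_target E q) (D ^ 2)
  refine ⟨C, ρ, hC, hρ, h.mono fun a ha u β hN hβ hd => ?_⟩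
  have h1 := ha u β hN.len.le hβ
  rw [hN.hit, cost_comm, cost, hd, hN.len] at h1
  linarith

theorem tendsto_of_rdist {ι : Type*} {l : Filter ι} {x : ι → M}
    (h : Tendsto (fun i => rdist g q (x i)) l (𝓝 0)) : Tendsto x l (𝓝 q) := by
  refine tendsto_nhds.2 fun U hU hq => ?_
  have hc : Continuous (rdist g q) := (continuous_rdist g).comp (Continuous.prodMk_right q)
  obtain ⟨δ, hδ, h1⟩ := hU.isClosed_compl.isCompact.exists_forall_le' hc.continuousOn (a := 0)
    fun y hy => (rdist_nonneg g q y).lt_of_ne fun e => hy (eq_of_rdist g e.symm ▸ hq)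
  filter_upwards [h.eventually (gt_mem_nhds hδ)] with i hi
  by_contra hn
  exact absurd (h1 _ hn) (not_le.2 hi)

end Vale.Agent.P231
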